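import Vale.Agent.H92.CT.SliceDefect
import Vale.Agent.H2.CT.BoxKappaFree
import Vale.Agent.H91.CT.BoxLift
import Vale.Agent.H10.CT.StarArms

/-!
P328: the kappa-step with constant `1` at a column `a` of a class whose other columns are not
capped (`ρ ≤ s b` for all `b ≠ a`).

`step_of_star`: if the star inequality with the constant `2 n / (n + 1)` holds at the column `a`
of the class `Box (n + 1) s ρ` for the centred function, then the slack of the class is at least
the sum of the slacks of the slices `{z a = j}` plus twice the squared deviation of the slice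
averages.  The proof subtracts the bound `slice_defect_uncapped` of the slice defect of the
penalties of the pairs not containing `a` from the star inequality:
`2 (2 n / (n + 1)) - 2 (n - 1) / (n + 1) = 2`.

`step_arms_uncapped`: the same without the hypothesis (the star inequality is
`Vale.Agent.H10.CT.star_arms_uncapped`).  `sur_uncapped` and `sur_one_capped`: by induction on
the number of columns, the slack of a class with at most one capped column is at least twice
the squared deviation from the mean (the surplus inequality with the exact constant).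
-/

namespace Vale.Agent.H92.CT

open Finset Vale.Agent.H90 Vale.Agent.H14.CT Vale.Agent.H2.CT

section symm

variable {n : ℕ} {s : Fin n → ℕ} {ρ : ℕ}

theorem lineRel_comm (a b : Fin n) (z w : Box n s ρ) : LineRel a b z w ↔ LineRel b a z w :=
  ⟨fun h k hkb hka => h k hka hkb, fun h k hka hkb => h k hkb hka⟩

theorem depthB_comm (a b : Fin n) (z : Box n s ρ) : depthB a b z = depthB b a z := by
  unfold depthB
  rw [add_comm (z.1 a) (z.1 b), add_comm (s a - z.1 a) (s b - z.1 b), min_comm (s a) (s b)]

/-- The block Dirichlet form does not depend on the order of the pair. -/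
theorem QB_comm (a b : Fin n) (f : Box n s ρ → ℝ) : QB a b f = QB b a f := by
  unfold QB
  rw [avgRel_congr (LineRel a b) (LineRel b a) (fun z w => lineRel_comm a b z w) f]

/-- The penalty does not depend on the order of the pair. -/
theorem penB_comm (a b : Fin n) (hab : a ≠ b) (f : Box n s ρ → ℝ) :
    penB a b f = penB b a f := by
  unfold penB
  rw [min_comm (s a) (s b)]
  refine Finset.sum_congr rfl (fun d _ => ?_)
  have h1 : univ.filter (fun z : Box n s ρ => d ≤ depthB a b z)
      = univ.filter (fun z : Box n s ρ => d ≤ depthB b a z) :=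
    Finset.filter_congr (fun z _ => by rw [depthB_comm a b z])
  have h2 := card_level_eq b a hab.symm (levelB a b) (fun (z : Box n s ρ) (G : ℕ → ℝ) => by
      have h := box_class_level a b hab z G
      have e : univ.filter (fun z' => LineRel b a z z')
          = univ.filter (fun z' => LineRel a b z z') :=
        Finset.filter_congr (fun z' _ => (lineRel_comm a b z z').symm)
      rw [e, depthB_comm b a z]
      exact h) d
  rw [h1, h2]

end symm

variable {n : ℕ} {s : Fin (n + 1) → ℕ} {ρ : ℕ}

/-- The ordered pairs of distinct columns containing `a`. -/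
theorem sum_near (a : Fin (n + 1)) (G : Fin (n + 1) → Fin (n + 1) → ℝ) :
    ∑ x : Fin (n + 1), ∑ y : Fin (n + 1), (if x ≠ y ∧ (x = a ∨ y = a) then G x y else 0)
      = ∑ b : Fin (n + 1), (if b ≠ a then G a b + G b a else 0) := by
  have e : ∀ x y : Fin (n + 1), (if x ≠ y ∧ (x = a ∨ y = a) then G x y else 0)
      = (if x = a then (if y ≠ a then G a y else 0) else 0)
        + (if y = a then (if x ≠ a then G x a else 0) else 0) := by
    intro x y
    by_cases hx : x = a
    · by_cases hy : y = a
      · rw [if_neg (fun hh => hh.1 (hx.trans hy.symm)), if_pos hx, if_neg (not_not.mpr hy),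
          if_pos hy, if_neg (not_not.mpr hx), add_zero]
      · rw [if_pos ⟨fun hh => hy (hh ▸ hx), Or.inl hx⟩, if_pos hx, if_pos hy, if_neg hy,
          add_zero, hx]
    · by_cases hy : y = a
      · rw [if_pos ⟨fun hh => hx (hh.trans hy), Or.inr hy⟩, if_neg hx, if_pos hy, if_pos hx,
          zero_add, hy]
      · rw [if_neg (fun hh => hh.2.elim hx hy), if_neg hx, if_neg hy, add_zero]
  have e1 : ∑ x : Fin (n + 1), ∑ y : Fin (n + 1),
      (if x = a then (if y ≠ a then G a y else 0) else 0)
      = ∑ y : Fin (n + 1), (if y ≠ a then G a y else 0) := by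
    rw [Finset.sum_comm]
    refine Finset.sum_congr rfl (fun y _ => ?_)
    rw [Finset.sum_ite_eq' univ a, if_pos (mem_univ a)]
  have e2 : ∑ x : Fin (n + 1), ∑ y : Fin (n + 1),
      (if y = a then (if x ≠ a then G x a else 0) else 0)
      = ∑ x : Fin (n + 1), (if x ≠ a then G x a else 0) := by
    refine Finset.sum_congr rfl (fun x _ => ?_)
    rw [Finset.sum_ite_eq' univ a, if_pos (mem_univ a)]
  have e3 : ∀ x : Fin (n + 1), ∑ y : Fin (n + 1), (if x ≠ y ∧ (x = a ∨ y = a) then G x y else 0)
      = ∑ y : Fin (n + 1), (if x = a then (if y ≠ a then G a y else 0) else 0)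
        + ∑ y : Fin (n + 1), (if y = a then (if x ≠ a then G x a else 0) else 0) := by
    intro x
    rw [← Finset.sum_add_distrib]
    exact Finset.sum_congr rfl (fun y _ => e x y)
  rw [Finset.sum_congr rfl (fun x _ => e3 x), Finset.sum_add_distrib, e1, e2,
    ← Finset.sum_add_distrib]
  refine Finset.sum_congr rfl (fun b _ => ?_)
  by_cases hb : b ≠ a
  · rw [if_pos hb, if_pos hb, if_pos hb]
  · rw [if_neg hb, if_neg hb, if_neg hb, add_zero]

/-- Centring the restriction to a slice of the centred function. -/
theorem centre_slice (a : Fin (n + 1)) (j : ℕ) (hj1 : j ≤ s a) (hj2 : j ≤ ρ)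
    (f : Box (n + 1) s ρ → ℝ) :
    centreB (sliceFun a j (centreB f)) = centreB (sliceFun a j f) := by
  have e : ∀ w, sliceFun a j (centreB f) w
      = sliceFun a j f w - (∑ z, f z) / (Fintype.card (Box (n + 1) s ρ) : ℝ) := by
    intro w
    rw [sliceFun_eq a j hj1 hj2, sliceFun_eq a j hj1 hj2]
    rfl
  funext w
  have hc : (Fintype.card (Box n (fun k => s (a.succAbove k)) (ρ - j)) : ℝ) ≠ 0 := by
    have : 0 < Fintype.card (Box n (fun k => s (a.succAbove k)) (ρ - j)) :=
      Fintype.card_pos_iff.2 ⟨w⟩
    exact_mod_cast this.ne'
  show sliceFun a j (centreB f) w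
        - (∑ w', sliceFun a j (centreB f) w')
          / (Fintype.card (Box n (fun k => s (a.succAbove k)) (ρ - j)) : ℝ)
      = sliceFun a j f w
        - (∑ w', sliceFun a j f w')
          / (Fintype.card (Box n (fun k => s (a.succAbove k)) (ρ - j)) : ℝ)
  rw [Finset.sum_congr rfl (fun w' _ => e w'), e w, Finset.sum_sub_distrib, Finset.sum_const,
    Finset.card_univ, nsmul_eq_mul]
  field_simp
  ring

/-- The squared slice averages of the centred function. -/
theorem between_centre (a : Fin (n + 1)) (f : Box (n + 1) s ρ → ℝ) :
    ∑ z, avgRel (SliceRel a) (centreB f) z ^ 2 = betweenB a f := by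
  unfold betweenB
  refine Finset.sum_congr rfl (fun z _ => ?_)
  unfold centreB
  rw [avgRel_sub_const _ (sliceRel_eqv14 a)]

/-- The kappa-step with constant `1` from the star inequality with constant `2 n / (n + 1)`,
at a column `a` such that no other column is capped. -/
theorem step_of_star (hn : 1 ≤ n) (s : Fin (n + 1) → ℕ) (ρ : ℕ) (a : Fin (n + 1))
    (hs : ∀ b, b ≠ a → ρ ≤ s b) (f : Box (n + 1) s ρ → ℝ)
    (hstar : ∑ b : Fin (n + 1), (if b ≠ a then penB a b (centreB f) else 0)
        + (2 * (((n + 1 : ℕ) : ℝ) - 1) / ((n + 1 : ℕ) : ℝ))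
          * ∑ z, avgRel (SliceRel a) (centreB f) z ^ 2
      ≤ ∑ b : Fin (n + 1), (if b ≠ a then QB a b (centreB f) else 0)) :
    ∑ j ∈ Finset.range (min (s a) ρ + 1), slackB (sliceFun a j f) + 2 * 1 * betweenB a f
      ≤ slackB f := by
  have hn' : (1 : ℝ) ≤ (n : ℝ) := by exact_mod_cast hn
  have hF : ∑ z, centreB f z = 0 := sum_centreB f
  -- the slack of the class
  have hslack : slackB f
      = ∑ b : Fin (n + 1), (if b ≠ a then
            (QB a b (centreB f) - penB a b (centreB f))
              + (QB b a (centreB f) - penB b a (centreB f)) else 0)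
        + sumNe (fun b c : Fin n =>
            QB (a.succAbove b) (a.succAbove c) f
              - penB (a.succAbove b) (a.succAbove c) (centreB f)) := by
    unfold slackB
    rw [sum_ne_split a (fun x y => QB x y f - penB x y (centreB f)),
      sum_near a (fun x y => QB x y f - penB x y (centreB f))]
    congr 1
    refine Finset.sum_congr rfl (fun b _ => ?_)
    rw [QB_centreB, QB_centreB]
  -- the pairs containing `a`
  have hnear : ∑ b : Fin (n + 1), (if b ≠ a then
        (QB a b (centreB f) - penB a b (centreB f))
          + (QB b a (centreB f) - penB b a (centreB f)) else 0)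
      = 2 * (∑ b : Fin (n + 1), (if b ≠ a then QB a b (centreB f) else 0)
          - ∑ b : Fin (n + 1), (if b ≠ a then penB a b (centreB f) else 0)) := by
    rw [← Finset.sum_sub_distrib, Finset.mul_sum]
    refine Finset.sum_congr rfl (fun b _ => ?_)
    by_cases hb : b ≠ a
    · rw [if_pos hb, if_pos hb, if_pos hb, ← QB_comm a b, ← penB_comm a b (Ne.symm hb)]
      ring
    · rw [if_neg hb, if_neg hb, if_neg hb]
      ring
  -- the slacks of the slices
  have hsl : ∑ j ∈ Finset.range (min (s a) ρ + 1), slackB (sliceFun a j f)
      = sumNe (fun b c : Fin n => QB (a.succAbove b) (a.succAbove c) f)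
        - sumNe (fun b c : Fin n =>
            ∑ j ∈ Finset.range (min (s a) ρ + 1), penB b c (centreB (sliceFun a j f))) := by
    have h1 : ∀ j ∈ Finset.range (min (s a) ρ + 1), slackB (sliceFun a j f)
        = sumNe (fun b c : Fin n => QB b c (sliceFun a j f))
          - sumNe (fun b c : Fin n => penB b c (centreB (sliceFun a j f))) := by
      intro j _
      rw [← sumNe_sub]
      rfl
    rw [Finset.sum_congr rfl h1, Finset.sum_sub_distrib, sumNe_sum, sumNe_sum]
    congr 1
    unfold sumNe
    refine Finset.sum_congr rfl (fun b _ => Finset.sum_congr rfl (fun c _ => ?_))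
    beta_reduce
    rw [QB_slices a b c f]
  -- the slice defect
  have hS := slice_defect_uncapped hn s ρ a hs (centreB f) hF
  have hS' : sumNe (fun b c : Fin n => penB (a.succAbove b) (a.succAbove c) (centreB f))
        - sumNe (fun b c : Fin n =>
            ∑ j ∈ Finset.range (min (s a) ρ + 1), penB b c (centreB (sliceFun a j f)))
      ≤ 2 * ((n : ℝ) - 1) / ((n : ℝ) + 1) * betweenB a f := by
    have e1 : sumNe (fun b c : Fin n => penB (a.succAbove b) (a.succAbove c) (centreB f))
          - sumNe (fun b c : Fin n =>
              ∑ j ∈ Finset.range (min (s a) ρ + 1), penB b c (centreB (sliceFun a j f)))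
        = sumNe (fun b c : Fin n => penB (a.succAbove b) (a.succAbove c) (centreB f)
            - ∑ j ∈ Finset.range (min (s a) ρ + 1),
                penB b c (centreB (sliceFun a j (centreB f)))) := by
      rw [sumNe_sub]
      congr 1
      refine sumNe_congr _ _ (fun b c _ => ?_)
      refine Finset.sum_congr rfl (fun j hj => ?_)
      rw [Finset.mem_range] at hj
      rw [centre_slice a j (by omega) (by omega) f]
    rw [e1, ← betweenB_centreB a f]
    exact hS
  have hfar : sumNe (fun b c : Fin n =>
        QB (a.succAbove b) (a.succAbove c) f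
          - penB (a.succAbove b) (a.succAbove c) (centreB f))
      = sumNe (fun b c : Fin n => QB (a.succAbove b) (a.succAbove c) f)
        - sumNe (fun b c : Fin n => penB (a.succAbove b) (a.succAbove c) (centreB f)) :=
    sumNe_sub _ _
  rw [between_centre a f] at hstar
  have hcast : (2 * (((n + 1 : ℕ) : ℝ) - 1) / ((n + 1 : ℕ) : ℝ)) = 2 * (n : ℝ) / ((n : ℝ) + 1) := by
    push_cast
    ring
  rw [hcast] at hstar
  have hB := betweenB_nonneg a f
  have hpos : (0 : ℝ) < (n : ℝ) + 1 := by linarith
  have hcomb : 2 * (2 * (n : ℝ) / ((n : ℝ) + 1) * betweenB a f)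
      - 2 * ((n : ℝ) - 1) / ((n : ℝ) + 1) * betweenB a f = 2 * 1 * betweenB a f := by
    field_simp
    ring
  rw [hslack, hnear, hfar, hsl]
  linarith

/-- The kappa-step with constant `1` at a column `a` of a class whose other columns are not
capped: the slack of the class is at least the sum of the slacks of the slices `{z a = j}`
plus twice the squared deviation of the slice averages. -/
theorem step_arms_uncapped (hn : 1 ≤ n) (s : Fin (n + 1) → ℕ) (ρ : ℕ) (a : Fin (n + 1))
    (hs : ∀ b, b ≠ a → ρ ≤ s b) (f : Box (n + 1) s ρ → ℝ) :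
    ∑ j ∈ Finset.range (min (s a) ρ + 1), slackB (sliceFun a j f) + 2 * 1 * betweenB a f
      ≤ slackB f :=
  step_of_star hn s ρ a hs f
    (Vale.Agent.H10.CT.star_arms_uncapped (n + 1) (by omega) s ρ a hs (centreB f)
      (sum_centreB f))

/-- The surplus inequality with the exact constant on the classes without capped columns. -/
theorem sur_uncapped (m : ℕ) : ∀ (t : Fin m → ℕ) (r : ℕ), (∀ k, r ≤ t k) →
    ∀ g : Box m t r → ℝ, 2 * devB g ≤ slackB g := by
  induction m with
  | zero =>
    intro t r _ g
    have h := slack_small (fun _ => (1 : ℝ)) (Nat.zero_le 1) t r g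
    rw [kmin_small _ 0 (by omega), mul_one] at h
    exact h
  | succ m ih =>
    intro t r hu g
    rcases Nat.lt_or_ge m 2 with hm | hm
    · rcases Nat.eq_zero_or_pos m with h0 | h0
      · subst h0
        have h := slack_small (fun _ => (1 : ℝ)) (le_refl 1) t r g
        rw [kmin_small _ 1 (by omega), mul_one] at h
        exact h
      · have h1 : m = 1 := by omega
        subst h1
        rw [slack_two_dev]
    · have hstep := step_arms_uncapped (by omega) t r 0 (fun b _ => hu b) g
      rw [devB_split 0 g]
      have hsl : ∑ j ∈ Finset.range (min (t 0) r + 1), 2 * devB (sliceFun 0 j g)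
          ≤ ∑ j ∈ Finset.range (min (t 0) r + 1), slackB (sliceFun 0 j g) :=
        Finset.sum_le_sum (fun j _ =>
          ih (fun k => t ((0 : Fin (m + 1)).succAbove k)) (r - j)
            (fun k => (Nat.sub_le r j).trans (hu _)) (sliceFun 0 j g))
      rw [← Finset.mul_sum] at hsl
      linarith

/-- The surplus inequality with the exact constant on the classes with at most one capped
column: if `ρ ≤ s b` for every column `b ≠ a`, then the slack of every function is at least
twice its squared deviation from the mean. -/
theorem sur_one_capped (m : ℕ) (t : Fin m → ℕ) (r : ℕ) (a : Fin m)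
    (hs : ∀ b, b ≠ a → r ≤ t b) (g : Box m t r → ℝ) : 2 * devB g ≤ slackB g := by
  cases m with
  | zero => exact a.elim0
  | succ m =>
    rcases Nat.lt_or_ge m 2 with hm | hm
    · rcases Nat.eq_zero_or_pos m with h0 | h0
      · subst h0
        have h := slack_small (fun _ => (1 : ℝ)) (le_refl 1) t r g
        rw [kmin_small _ 1 (by omega), mul_one] at h
        exact h
      · have h1 : m = 1 := by omega
        subst h1
        rw [slack_two_dev]
    · have hstep := step_arms_uncapped (by omega) t r a hs g
      rw [devB_split a g]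
      have hsl : ∑ j ∈ Finset.range (min (t a) r + 1), 2 * devB (sliceFun a j g)
          ≤ ∑ j ∈ Finset.range (min (t a) r + 1), slackB (sliceFun a j g) :=
        Finset.sum_le_sum (fun j _ =>
          sur_uncapped m (fun k => t (a.succAbove k)) (r - j)
            (fun k => (Nat.sub_le r j).trans (hs _ (Fin.succAbove_ne a k))) (sliceFun a j g))
      rw [← Finset.mul_sum] at hsl
      linarith

end Vale.Agent.H92.CT
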