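import Vale.Agent.H44.CT.BoxCount
import Vale.Agent.H44.CT.LineShift

/-!
P328: counting in box-slice classes whose columns are not capped (`m ≤ t k` for all `k`,
`m` the sum of the entries).  Adding one unit at a column is a bijection from the class of
sum `m` onto the vectors of the class of sum `m + 1` with a positive entry at that column.
Consequences: the recursion of the cardinalities, the second moment of the entries, and the
counting identity between the depth counts and the level counts of two consecutive classes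
that is used for the slice defect of the penalties.
-/

namespace Vale.Agent.H92.CT

open Finset Vale.Agent.H14.CT Vale.Agent.H44.CT

variable {n : ℕ}

/-- The sum of the entries, as a real number. -/
theorem sum_coord (t : Fin n → ℕ) (m : ℕ) (w : Box n t m) : ∑ c, (w.1 c : ℝ) = m := by
  have h : ((∑ k, w.1 k : ℕ) : ℝ) = (m : ℝ) := by exact_mod_cast w.2.2
  rw [Nat.cast_sum] at h
  exact h

/-- Weighted shift identity: a sum over the class of sum `m + 1`, weighted by the entry at the
column `c`, is a sum over the class of sum `m`. -/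
theorem shift_sum (t : Fin n → ℕ) (m : ℕ) (c : Fin n) (G : (Fin n → ℕ) → ℝ) :
    ∑ z : Box n t (m + 1), (z.1 c : ℝ) * G z.1
      = ∑ w : Box n t m, (if w.1 c < t c then
          ((w.1 c : ℝ) + 1) * G (Function.update w.1 c (w.1 c + 1)) else 0) := by
  have hpos : ∀ z : Box n t (m + 1), (z.1 c : ℝ) * G z.1 ≠ 0 → 1 ≤ z.1 c := by
    intro z hz
    rcases Nat.eq_zero_or_pos (z.1 c) with h0 | h0
    · exfalso
      apply hz
      rw [h0]
      simp
    · exact h0
  refine Finset.sum_bij_ne_zero
    (fun z _ hz => (⟨Function.update z.1 c (z.1 c - 1),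
      r2_down_mem t m c z (hpos z hz)⟩ : Box n t m))
    (fun _ _ _ => mem_univ _) ?_ ?_ ?_
  · intro z₁ _ h₁ z₂ _ h₂ heq
    have hv : Function.update z₁.1 c (z₁.1 c - 1) = Function.update z₂.1 c (z₂.1 c - 1) :=
      congrArg Subtype.val heq
    apply Subtype.ext
    funext k
    have hk := congrFun hv k
    by_cases hkc : k = c
    · subst hkc
      rw [Function.update_self, Function.update_self] at hk
      have e1 := hpos z₁ h₁
      have e2 := hpos z₂ h₂
      omega
    · rw [Function.update_of_ne hkc, Function.update_of_ne hkc] at hk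
      exact hk
  · intro w _ hw
    have hlt : w.1 c < t c := by
      by_contra hcon
      exact hw (if_neg hcon)
    have hne : ((Function.update w.1 c (w.1 c + 1) c : ℕ) : ℝ)
        * G (Function.update w.1 c (w.1 c + 1)) ≠ 0 := by
      rw [if_pos hlt] at hw
      rw [Function.update_self]
      push_cast
      exact hw
    refine ⟨⟨Function.update w.1 c (w.1 c + 1), r2_up_mem t m c w hlt⟩, mem_univ _, hne, ?_⟩
    apply Subtype.ext
    simp
  · intro z _ hz
    have h1 := hpos z hz
    have hlt : z.1 c - 1 < t c := lt_of_lt_of_le (by omega) (z.2.1 c)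
    simp only [Function.update_self]
    rw [if_pos hlt]
    have e1 : z.1 c - 1 + 1 = z.1 c := by omega
    have e2 : Function.update (Function.update z.1 c (z.1 c - 1)) c (z.1 c - 1 + 1) = z.1 := by
      rw [Function.update_idem, e1, Function.update_eq_self]
    rw [e2]
    have e3 : ((z.1 c - 1 : ℕ) : ℝ) + 1 = (z.1 c : ℝ) := by
      rw [Nat.cast_sub h1]
      push_cast
      ring
    rw [e3]

/-- The weighted shift identity in a class without caps. -/
theorem shift_sum_unc (t : Fin n → ℕ) (m : ℕ) (hu : ∀ k, m + 1 ≤ t k) (c : Fin n)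
    (G : (Fin n → ℕ) → ℝ) :
    ∑ z : Box n t (m + 1), (z.1 c : ℝ) * G z.1
      = ∑ w : Box n t m, ((w.1 c : ℝ) + 1) * G (Function.update w.1 c (w.1 c + 1)) := by
  rw [shift_sum]
  refine Finset.sum_congr rfl (fun w _ => ?_)
  have h1 : w.1 c ≤ m :=
    calc w.1 c ≤ ∑ k, w.1 k :=
          Finset.single_le_sum (fun k _ => Nat.zero_le (w.1 k)) (mem_univ c)
      _ = m := w.2.2
  have h2 := hu c
  rw [if_pos (by omega)]

/-- The recursion of the cardinalities of the classes without caps. -/
theorem card_succ (t : Fin n → ℕ) (m : ℕ) (hu : ∀ k, m + 1 ≤ t k) :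
    ((m : ℝ) + 1) * (Fintype.card (Box n t (m + 1)) : ℝ)
      = ((m : ℝ) + n) * (Fintype.card (Box n t m) : ℝ) := by
  have h1 : ∑ c : Fin n, ∑ z : Box n t (m + 1), (z.1 c : ℝ) * (fun _ => (1 : ℝ)) z.1
      = ∑ c : Fin n, ∑ w : Box n t m, ((w.1 c : ℝ) + 1)
          * (fun _ => (1 : ℝ)) (Function.update w.1 c (w.1 c + 1)) :=
    Finset.sum_congr rfl (fun c _ => shift_sum_unc t m hu c (fun _ => (1 : ℝ)))
  simp only [mul_one] at h1
  rw [Finset.sum_comm] at h1
  conv_rhs at h1 => rw [Finset.sum_comm]
  have h2 : ∀ z : Box n t (m + 1), ∑ c : Fin n, (z.1 c : ℝ) = (m : ℝ) + 1 := by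
    intro z
    rw [sum_coord]
    push_cast
    ring
  have h3 : ∀ w : Box n t m, ∑ c : Fin n, ((w.1 c : ℝ) + 1) = (m : ℝ) + n := by
    intro w
    rw [Finset.sum_add_distrib, sum_coord, Finset.sum_const, Finset.card_univ, Fintype.card_fin,
      nsmul_eq_mul, mul_one]
  rw [Finset.sum_congr rfl (fun z _ => h2 z), Finset.sum_congr rfl (fun w _ => h3 w),
    Finset.sum_const, Finset.sum_const, Finset.card_univ, Finset.card_univ, nsmul_eq_mul,
    nsmul_eq_mul] at h1
  linarith

/-- The second moment of the entries in a class without caps. -/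
theorem second_moment (t : Fin n → ℕ) (m : ℕ) (hu : ∀ k, m ≤ t k) :
    ((n : ℝ) + 1) * ∑ w : Box n t m, ∑ c : Fin n, (w.1 c : ℝ) * ((w.1 c : ℝ) + 1)
      = 2 * (m : ℝ) * ((m : ℝ) + n) * (Fintype.card (Box n t m) : ℝ) := by
  induction m with
  | zero =>
    have h0 : ∀ w : Box n t 0, ∑ c : Fin n, (w.1 c : ℝ) * ((w.1 c : ℝ) + 1) = 0 := by
      intro w
      refine Finset.sum_eq_zero (fun c _ => ?_)
      have h1 : w.1 c = 0 := by
        have h := w.2.2
        exact (Finset.sum_eq_zero_iff.1 h) c (mem_univ c)
      rw [h1]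
      simp
    rw [Finset.sum_congr rfl (fun w _ => h0 w)]
    simp
  | succ m ih =>
    have hu' : ∀ k, m ≤ t k := fun k => (Nat.le_succ m).trans (hu k)
    have ih' := ih hu'
    have hc := card_succ t m hu
    have h1 : ∑ c : Fin n, ∑ z : Box n t (m + 1),
          (z.1 c : ℝ) * (fun v : Fin n → ℕ => (v c : ℝ) + 1) z.1
        = ∑ c : Fin n, ∑ w : Box n t m, ((w.1 c : ℝ) + 1)
            * (fun v : Fin n → ℕ => (v c : ℝ) + 1) (Function.update w.1 c (w.1 c + 1)) :=
      Finset.sum_congr rfl
        (fun c _ => shift_sum_unc t m hu c (fun v : Fin n → ℕ => (v c : ℝ) + 1))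
    simp only [Function.update_self] at h1
    rw [Finset.sum_comm] at h1
    conv_rhs at h1 => rw [Finset.sum_comm]
    have h3 : ∀ w : Box n t m,
        ∑ c : Fin n, ((w.1 c : ℝ) + 1) * (((w.1 c + 1 : ℕ) : ℝ) + 1)
          = ∑ c : Fin n, (w.1 c : ℝ) * ((w.1 c : ℝ) + 1) + 2 * ((m : ℝ) + n) := by
      intro w
      have e : ∀ c : Fin n, ((w.1 c : ℝ) + 1) * (((w.1 c + 1 : ℕ) : ℝ) + 1)
          = (w.1 c : ℝ) * ((w.1 c : ℝ) + 1) + 2 * ((w.1 c : ℝ) + 1) := by
        intro c
        push_cast
        ring
      rw [Finset.sum_congr rfl (fun c _ => e c), Finset.sum_add_distrib, ← Finset.mul_sum,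
        Finset.sum_add_distrib, sum_coord, Finset.sum_const, Finset.card_univ, Fintype.card_fin,
        nsmul_eq_mul, mul_one]
    rw [Finset.sum_congr rfl (fun w _ => h3 w), Finset.sum_add_distrib, Finset.sum_const,
      Finset.card_univ, nsmul_eq_mul] at h1
    rw [h1]
    push_cast
    nlinarith [ih', hc]

/-- Two distinct entries sum to at most the total. -/
theorem two_le (t : Fin n → ℕ) (m : ℕ) (b c : Fin n) (hbc : b ≠ c) (w : Box n t m) :
    w.1 b + w.1 c ≤ m := by
  have h := w.2.2
  rw [sum_two_erase b c hbc w.1] at h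
  omega

/-- In a class without caps the depth of a line is the sum of the two entries. -/
theorem depthB_unc (t : Fin n → ℕ) (m : ℕ) (hu : ∀ k, m ≤ t k) (b c : Fin n) (hbc : b ≠ c)
    (w : Box n t m) : depthB b c w = w.1 b + w.1 c := by
  have h1 := two_le t m b c hbc w
  have h2 := hu b
  have h3 := hu c
  unfold depthB
  omega

/-- In a class without caps the level is the first entry. -/
theorem levelB_unc (t : Fin n → ℕ) (m : ℕ) (hu : ∀ k, m ≤ t k) (b c : Fin n) (hbc : b ≠ c)
    (w : Box n t m) : levelB b c w = w.1 b := by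
  have h1 := two_le t m b c hbc w
  have h3 := hu c
  unfold levelB
  omega

/-- The level counts of two consecutive classes without caps. -/
theorem level_card_shift (t : Fin n → ℕ) (m : ℕ) (hu : ∀ k, m + 1 ≤ t k) (b c : Fin n)
    (hbc : b ≠ c) (d : ℕ) :
    ((univ.filter (fun w : Box n t (m + 1) => levelB b c w = d + 1)).card : ℝ)
      = ((univ.filter (fun v : Box n t m => levelB b c v = d)).card : ℝ) := by
  have hu' : ∀ k, m ≤ t k := fun k => (Nat.le_succ m).trans (hu k)
  have h := shift_sum_unc t m hu b (fun v : Fin n → ℕ => if v b = d + 1 then (1 : ℝ) else 0)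
  simp only [Function.update_self] at h
  have hL : ∑ z : Box n t (m + 1), (z.1 b : ℝ) * (if z.1 b = d + 1 then (1 : ℝ) else 0)
      = ((d : ℝ) + 1)
        * ((univ.filter (fun w : Box n t (m + 1) => levelB b c w = d + 1)).card : ℝ) := by
    rw [Finset.card_filter]
    push_cast
    rw [Finset.mul_sum]
    refine Finset.sum_congr rfl (fun z _ => ?_)
    rw [levelB_unc t (m + 1) hu b c hbc z]
    by_cases hz : z.1 b = d + 1
    · rw [if_pos hz, hz]
      push_cast
      ring
    · rw [if_neg hz]
      ring
  have hR : ∑ w : Box n t m, ((w.1 b : ℝ) + 1) * (if w.1 b + 1 = d + 1 then (1 : ℝ) else 0)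
      = ((d : ℝ) + 1) * ((univ.filter (fun v : Box n t m => levelB b c v = d)).card : ℝ) := by
    rw [Finset.card_filter]
    push_cast
    rw [Finset.mul_sum]
    refine Finset.sum_congr rfl (fun w _ => ?_)
    rw [levelB_unc t m hu' b c hbc w]
    by_cases hw : w.1 b = d
    · rw [if_pos hw, hw]
    · rw [if_neg hw]
      ring
  rw [hL, hR] at h
  have hd : ((d : ℝ) + 1) ≠ 0 := by positivity
  exact mul_left_cancel₀ hd h

/-- The depth counts of two consecutive classes without caps. -/
theorem depth_card_shift (t : Fin n → ℕ) (m : ℕ) (hu : ∀ k, m + 1 ≤ t k) (b c : Fin n)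
    (hbc : b ≠ c) (d : ℕ) :
    ((m : ℝ) + 1) * ((univ.filter (fun w : Box n t (m + 1) => d ≤ depthB b c w)).card : ℝ)
      = ((m : ℝ) + n) * ((univ.filter (fun v : Box n t m => d ≤ depthB b c v)).card : ℝ)
        + ((d : ℝ) + 1)
          * ((univ.filter (fun v : Box n t m => depthB b c v + 1 = d)).card : ℝ) := by
  have hu' : ∀ k, m ≤ t k := fun k => (Nat.le_succ m).trans (hu k)
  have h1 : ∑ e : Fin n, ∑ z : Box n t (m + 1),
        (z.1 e : ℝ) * (fun v : Fin n → ℕ => if d ≤ v b + v c then (1 : ℝ) else 0) z.1
      = ∑ e : Fin n, ∑ w : Box n t m, ((w.1 e : ℝ) + 1)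
          * (fun v : Fin n → ℕ => if d ≤ v b + v c then (1 : ℝ) else 0)
            (Function.update w.1 e (w.1 e + 1)) :=
    Finset.sum_congr rfl (fun e _ =>
      shift_sum_unc t m hu e (fun v : Fin n → ℕ => if d ≤ v b + v c then (1 : ℝ) else 0))
  rw [Finset.sum_comm] at h1
  conv_rhs at h1 => rw [Finset.sum_comm]
  have hL : ∀ z : Box n t (m + 1),
      ∑ e : Fin n, (z.1 e : ℝ) * (if d ≤ z.1 b + z.1 c then (1 : ℝ) else 0)
        = ((m : ℝ) + 1) * (if d ≤ depthB b c z then (1 : ℝ) else 0) := by
    intro z
    rw [← Finset.sum_mul, sum_coord, depthB_unc t (m + 1) hu b c hbc z]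
    push_cast
    ring
  have hR : ∀ w : Box n t m,
      ∑ e : Fin n, ((w.1 e : ℝ) + 1)
          * (if d ≤ Function.update w.1 e (w.1 e + 1) b + Function.update w.1 e (w.1 e + 1) c
              then (1 : ℝ) else 0)
        = ((m : ℝ) + n) * (if d ≤ depthB b c w then (1 : ℝ) else 0)
          + ((d : ℝ) + 1) * (if depthB b c w + 1 = d then (1 : ℝ) else 0) := by
    intro w
    rw [depthB_unc t m hu' b c hbc w]
    have e1 : ∀ e : Fin n, ((w.1 e : ℝ) + 1)
          * (if d ≤ Function.update w.1 e (w.1 e + 1) b + Function.update w.1 e (w.1 e + 1) c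
              then (1 : ℝ) else 0)
        = ((w.1 e : ℝ) + 1) * (if d ≤ w.1 b + w.1 c then (1 : ℝ) else 0)
          + ((if e = b then ((w.1 e : ℝ) + 1) * (if w.1 b + w.1 c + 1 = d then (1 : ℝ) else 0)
              else 0)
            + (if e = c then ((w.1 e : ℝ) + 1) * (if w.1 b + w.1 c + 1 = d then (1 : ℝ) else 0)
              else 0)) := by
      intro e
      by_cases heb : e = b
      · subst heb
        rw [Function.update_self, Function.update_of_ne hbc.symm, if_pos rfl, if_neg hbc]
        by_cases h1 : d ≤ w.1 e + w.1 c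
        · rw [if_pos (by omega), if_pos h1, if_neg (by omega)]
          ring
        · by_cases h2 : w.1 e + w.1 c + 1 = d
          · rw [if_pos (by omega), if_neg h1, if_pos h2]
            ring
          · rw [if_neg (by omega), if_neg h1, if_neg h2]
            ring
      · by_cases hec : e = c
        · subst hec
          rw [Function.update_self, Function.update_of_ne hbc, if_neg heb, if_pos rfl]
          by_cases h1 : d ≤ w.1 b + w.1 e
          · rw [if_pos (by omega), if_pos h1, if_neg (by omega)]
            ring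
          · by_cases h2 : w.1 b + w.1 e + 1 = d
            · rw [if_pos (by omega), if_neg h1, if_pos h2]
              ring
            · rw [if_neg (by omega), if_neg h1, if_neg h2]
              ring
        · rw [Function.update_of_ne (Ne.symm heb), Function.update_of_ne (Ne.symm hec),
            if_neg heb, if_neg hec]
          ring
    rw [Finset.sum_congr rfl (fun e _ => e1 e), Finset.sum_add_distrib, Finset.sum_add_distrib,
      Finset.sum_ite_eq' univ b, Finset.sum_ite_eq' univ c, if_pos (mem_univ b),
      if_pos (mem_univ c), ← Finset.sum_mul, Finset.sum_add_distrib, sum_coord, Finset.sum_const,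
      Finset.card_univ, Fintype.card_fin, nsmul_eq_mul, mul_one]
    by_cases h2 : w.1 b + w.1 c + 1 = d
    · have h3 : (d : ℝ) = (w.1 b : ℝ) + (w.1 c : ℝ) + 1 := by
        rw [← h2]
        push_cast
        ring
      rw [if_pos h2, h3]
      ring
    · rw [if_neg h2]
      ring
  rw [Finset.sum_congr rfl (fun z _ => hL z), Finset.sum_congr rfl (fun w _ => hR w),
    ← Finset.mul_sum, Finset.sum_add_distrib, ← Finset.mul_sum, ← Finset.mul_sum] at h1
  rw [Finset.card_filter, Finset.card_filter, Finset.card_filter]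
  push_cast
  exact h1

/-- In every class: the number of vectors on lines of depth exactly `e` is `e + 1` times the
difference of two consecutive level counts. -/
theorem depth_eq_card {s : Fin n → ℕ} {ρ : ℕ} (a b : Fin n) (hab : a ≠ b) (e : ℕ) :
    ((univ.filter (fun z : Box n s ρ => depthB a b z = e)).card : ℝ)
      = ((e : ℝ) + 1) * (((univ.filter (fun z : Box n s ρ => levelB a b z = e)).card : ℝ)
          - ((univ.filter (fun z : Box n s ρ => levelB a b z = e + 1)).card : ℝ)) := by
  classical
  have hA : ∀ z w : Box n s ρ, LineRel a b z w → (depthB a b z = e ↔ depthB a b w = e) := by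
    intro z w h
    rw [depthB_const a b hab z w h]
  have h1 : (univ.filter (fun z : Box n s ρ => depthB a b z = e)).card
      = (e + 1)
        * (univ.filter (fun z : Box n s ρ => depthB a b z = e ∧ levelB a b z = 0)).card := by
    have hmaps : ∀ z ∈ univ.filter (fun z : Box n s ρ => depthB a b z = e),
        levelB a b z ∈ Finset.range (e + 1) := by
      intro z hz
      have h := levelB_le_depthB a b hab z
      rw [(Finset.mem_filter.1 hz).2] at h
      exact Finset.mem_range.2 (by omega)
    rw [Finset.card_eq_sum_card_fiberwise hmaps]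
    have hterm : ∀ t ∈ Finset.range (e + 1),
        ((univ.filter (fun z : Box n s ρ => depthB a b z = e)).filter
          (fun z => levelB a b z = t)).card
        = (univ.filter (fun z : Box n s ρ => depthB a b z = e ∧ levelB a b z = 0)).card := by
      intro t ht
      rw [Finset.filter_filter, card_level_shift a b hab (fun z => depthB a b z = e) hA t]
      congr 1
      refine Finset.filter_congr (fun z _ => ?_)
      constructor
      · rintro ⟨h1, h2, _⟩
        exact ⟨h1, h2⟩
      · rintro ⟨h1, h2⟩
        refine ⟨h1, h2, ?_⟩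
        rw [h1]
        exact Nat.lt_succ_iff.1 (Finset.mem_range.1 ht)
    rw [Finset.sum_congr rfl hterm, Finset.sum_const, Finset.card_range, smul_eq_mul]
  have h2 : ∀ t : ℕ, (univ.filter (fun z : Box n s ρ => levelB a b z = t)).card
      = (univ.filter (fun z : Box n s ρ => levelB a b z = 0 ∧ t ≤ depthB a b z)).card := by
    intro t
    have h := card_level_shift a b hab (fun _ : Box n s ρ => True) (fun _ _ _ => Iff.rfl) t
    have e1 : univ.filter (fun z : Box n s ρ => True ∧ levelB a b z = t)
        = univ.filter (fun z : Box n s ρ => levelB a b z = t) :=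
      Finset.filter_congr (fun z _ => by simp)
    have e2 : univ.filter (fun z : Box n s ρ => True ∧ levelB a b z = 0 ∧ t ≤ depthB a b z)
        = univ.filter (fun z : Box n s ρ => levelB a b z = 0 ∧ t ≤ depthB a b z) :=
      Finset.filter_congr (fun z _ => by simp)
    rw [e1, e2] at h
    exact h
  have h3 : (univ.filter (fun z : Box n s ρ => levelB a b z = 0 ∧ e ≤ depthB a b z)).card
      = (univ.filter (fun z : Box n s ρ => levelB a b z = 0 ∧ e + 1 ≤ depthB a b z)).card
        + (univ.filter (fun z : Box n s ρ => depthB a b z = e ∧ levelB a b z = 0)).card := by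
    rw [← Finset.card_filter_add_card_filter_not
      (fun z : Box n s ρ => e + 1 ≤ depthB a b z)]
    congr 1
    · congr 1
      rw [Finset.filter_filter]
      refine Finset.filter_congr (fun z _ => ?_)
      constructor
      · rintro ⟨⟨h1, _⟩, h3⟩
        exact ⟨h1, h3⟩
      · rintro ⟨h1, h3⟩
        exact ⟨⟨h1, by omega⟩, h3⟩
    · congr 1
      rw [Finset.filter_filter]
      refine Finset.filter_congr (fun z _ => ?_)
      constructor
      · rintro ⟨⟨h1, h2⟩, h3⟩
        exact ⟨by omega, h1⟩
      · rintro ⟨h1, h2⟩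
        exact ⟨⟨h2, by omega⟩, by omega⟩
  rw [h1, h2 e, h2 (e + 1), h3]
  push_cast
  ring

/-- The counting identity between the depth counts and the level counts of two consecutive
classes without caps. -/
theorem cnt (t : Fin n → ℕ) (m : ℕ) (hu : ∀ k, m + 1 ≤ t k) (b c : Fin n) (hbc : b ≠ c)
    (d : ℕ) (hd : 1 ≤ d) :
    ((m : ℝ) + 1) * ((univ.filter (fun w : Box n t (m + 1) => d ≤ depthB b c w)).card : ℝ)
        - ((m : ℝ) + n) * ((univ.filter (fun v : Box n t m => d ≤ depthB b c v)).card : ℝ)
      = (d : ℝ) * ((d : ℝ) + 1)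
        * (((univ.filter (fun w : Box n t (m + 1) => levelB b c w = d)).card : ℝ)
          - ((univ.filter (fun v : Box n t m => levelB b c v = d)).card : ℝ)) := by
  obtain ⟨e, rfl⟩ : ∃ e, d = e + 1 := ⟨d - 1, by omega⟩
  have h1 := depth_card_shift t m hu b c hbc (e + 1)
  have h2 := depth_eq_card (s := t) (ρ := m) b c hbc e
  have h3 := level_card_shift t m hu b c hbc e
  have h4 : univ.filter (fun v : Box n t m => depthB b c v + 1 = e + 1)
      = univ.filter (fun v : Box n t m => depthB b c v = e) :=
    Finset.filter_congr (fun v _ => by omega)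
  rw [h4, h2] at h1
  rw [h1, h3]
  push_cast
  ring

end Vale.Agent.H92.CT
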