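import Vale.Agent.H92.CT.Shift
import Vale.Agent.H2.CT.BoxKappa
import Vale.Agent.H14.CT.BoxFree

/-!
P328: the slice defect of the penalties in a class whose arms are not capped.

Let `a` be a column of the class `Box (n + 1) s ρ` such that `ρ ≤ s b` for every other column
`b`.  For `f` of zero sum, the sum over the ordered pairs of columns different from `a` of
(the penalty of `f` in the class minus the sum over the slices `{z a = j}` of the penalties of
the centred restrictions of `f`) is at most `2 (n - 1) / (n + 1)` times the squared deviation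
of the slice averages of `f`.

Proof.  For every level `d` the penalty term of the class is bounded by Sedrakyan's inequality
applied to the shifted slice sums `x j + d (d + 1) m j φ j`; the shifts are chosen so that their
sum reproduces the contribution of the slice averages (`cd_identity`, by summation by parts
from the counting identity `cnt`), and the terms linear in the centred slice sums cancel after
summation over the pairs, because the sum of the depths of a vector over all pairs is constant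
on a slice.  The quadratic remainder is evaluated by the second moment of the entries and a
telescoping identity.
-/

namespace Vale.Agent.H92.CT

open Finset Vale.Agent.H90 Vale.Agent.H14.CT Vale.Agent.H2.CT Vale.Agent.H44.CT

section generic

/-- Summation by parts for a sequence vanishing at both ends. -/
theorem sum_shift_pair (J : ℕ) (x P Q : ℕ → ℝ) (h0 : x 0 = 0) (hJ : x (J + 1) = 0) :
    ∑ j ∈ Finset.range (J + 1), (P j * x (j + 1) - Q j * x j)
      = ∑ j ∈ Finset.range J, (P j - Q (j + 1)) * x (j + 1) := by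
  rw [Finset.sum_sub_distrib, Finset.sum_range_succ (fun j => P j * x (j + 1)), hJ,
    Finset.sum_range_succ' (fun j => Q j * x j), h0, mul_zero, mul_zero, add_zero, add_zero,
    ← Finset.sum_sub_distrib]
  refine Finset.sum_congr rfl (fun j _ => ?_)
  ring

/-- Sedrakyan's inequality for shifted variables. -/
theorem pen_shift {ι : Type*} (S : Finset ι) (x m φ : ι → ℝ) (κ : ℝ) (hκ : 0 < κ)
    (hm : ∀ j ∈ S, 0 ≤ m j) (hx : ∀ j ∈ S, m j = 0 → x j = 0) (X : ℝ)
    (hX : X = ∑ j ∈ S, (x j + κ * m j * φ j)) :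
    X ^ 2 / (κ * ∑ j ∈ S, m j)
      ≤ ∑ j ∈ S, (x j ^ 2 / (κ * m j) + 2 * x j * φ j + κ * m j * φ j ^ 2) := by
  have h1 := sedrakyan0 S (fun j => x j + κ * m j * φ j) m hm
    (fun j hj h0 => by
      show x j + κ * m j * φ j = 0
      rw [hx j hj h0, h0]
      ring) κ hκ
  rw [← hX] at h1
  refine le_trans h1 (le_of_eq (Finset.sum_congr rfl (fun j hj => ?_)))
  by_cases h0 : m j = 0
  · rw [hx j hj h0, h0]
    simp
  · have h2 : κ * m j ≠ 0 := mul_ne_zero hκ.ne' h0
    field_simp
    ring

/-- Counting the levels below a depth. -/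
theorem sum_Icc_le (D e : ℕ) (he : e ≤ D) (G : ℕ → ℝ) :
    ∑ d ∈ Finset.Icc 1 D, (if d ≤ e then G d else 0) = ∑ d ∈ Finset.Icc 1 e, G d := by
  rw [← Finset.sum_filter]
  refine Finset.sum_congr ?_ (fun _ _ => rfl)
  ext d
  simp only [Finset.mem_filter, Finset.mem_Icc]
  omega

/-- A sum over the ordered pairs of distinct indices of a function of the first index. -/
theorem sumNe_fst {n : ℕ} (G : Fin n → ℝ) :
    sumNe (fun b _ => G b) = ((n : ℝ) - 1) * ∑ b, G b := by
  unfold sumNe
  rw [Finset.mul_sum]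
  refine Finset.sum_congr rfl (fun b _ => ?_)
  have e : ∀ c : Fin n, (if b ≠ c then G b else 0) = G b - (if b = c then G b else 0) := by
    intro c
    by_cases h : b = c
    · rw [if_neg (not_not.mpr h), if_pos h, sub_self]
    · rw [if_pos h, if_neg h, sub_zero]
  rw [Finset.sum_congr rfl (fun c _ => e c), Finset.sum_sub_distrib, Finset.sum_const,
    Finset.card_univ, Fintype.card_fin, nsmul_eq_mul, Finset.sum_ite_eq univ b,
    if_pos (mem_univ b)]
  ring

/-- A sum over the ordered pairs of distinct indices of a function of the second index. -/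
theorem sumNe_snd {n : ℕ} (G : Fin n → ℝ) :
    sumNe (fun _ c => G c) = ((n : ℝ) - 1) * ∑ c, G c := by
  unfold sumNe
  rw [Finset.sum_comm, Finset.mul_sum]
  refine Finset.sum_congr rfl (fun c _ => ?_)
  have e : ∀ b : Fin n, (if b ≠ c then G c else 0) = G c - (if b = c then G c else 0) := by
    intro b
    by_cases h : b = c
    · rw [if_neg (not_not.mpr h), if_pos h, sub_self]
    · rw [if_pos h, if_neg h, sub_zero]
  rw [Finset.sum_congr rfl (fun b _ => e b), Finset.sum_sub_distrib, Finset.sum_const,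
    Finset.card_univ, Fintype.card_fin, nsmul_eq_mul, Finset.sum_ite_eq' univ c,
    if_pos (mem_univ c)]
  ring

theorem sumNe_add {n : ℕ} (G H : Fin n → Fin n → ℝ) :
    sumNe (fun b c => G b c + H b c) = sumNe G + sumNe H := by
  unfold sumNe
  rw [← Finset.sum_add_distrib]
  refine Finset.sum_congr rfl (fun b _ => ?_)
  rw [← Finset.sum_add_distrib]
  refine Finset.sum_congr rfl (fun c _ => ?_)
  by_cases hbc : b ≠ c
  · rw [if_pos hbc, if_pos hbc, if_pos hbc]
  · rw [if_neg hbc, if_neg hbc, if_neg hbc, add_zero]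

theorem sumNe_mul_left {n : ℕ} (t : ℝ) (G : Fin n → Fin n → ℝ) :
    sumNe (fun b c => t * G b c) = t * sumNe G := by
  unfold sumNe
  rw [Finset.mul_sum]
  refine Finset.sum_congr rfl (fun b _ => ?_)
  rw [Finset.mul_sum]
  refine Finset.sum_congr rfl (fun c _ => ?_)
  by_cases hbc : b ≠ c
  · rw [if_pos hbc, if_pos hbc]
  · rw [if_neg hbc, if_neg hbc, mul_zero]

theorem sumNe_congr {n : ℕ} (G H : Fin n → Fin n → ℝ) (h : ∀ b c, b ≠ c → G b c = H b c) :
    sumNe G = sumNe H := by
  unfold sumNe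
  refine Finset.sum_congr rfl (fun b _ => Finset.sum_congr rfl (fun c _ => ?_))
  by_cases hbc : b ≠ c
  · rw [if_pos hbc, if_pos hbc, h b c hbc]
  · rw [if_neg hbc, if_neg hbc]

end generic

section counts

variable {n : ℕ}

/-- The cardinality of a class, as a real number. -/
noncomputable def Pc (t : Fin n → ℕ) (m : ℕ) : ℝ := (Fintype.card (Box n t m) : ℝ)

/-- The number of vectors on lines of depth at least `d`. -/
noncomputable def Vc (t : Fin n → ℕ) (b c : Fin n) (m d : ℕ) : ℝ :=
  ((univ.filter (fun w : Box n t m => d ≤ depthB b c w)).card : ℝ)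

/-- The number of vectors of level `d`. -/
noncomputable def Mc (t : Fin n → ℕ) (b c : Fin n) (m d : ℕ) : ℝ :=
  ((univ.filter (fun w : Box n t m => levelB b c w = d)).card : ℝ)

theorem Pc_succ (t : Fin n → ℕ) (m : ℕ) (hu : ∀ k, m + 1 ≤ t k) :
    ((m : ℝ) + 1) * Pc t (m + 1) = ((m : ℝ) + n) * Pc t m :=
  card_succ t m hu

theorem Pc_pos (hn : 1 ≤ n) (t : Fin n → ℕ) (m : ℕ) (hu : ∀ k, m ≤ t k) : 0 < Pc t m := by
  unfold Pc
  have hne : Nonempty (Box n t m) := by
    refine ⟨⟨Function.update (fun _ => 0) (⟨0, hn⟩ : Fin n) m, ?_, ?_⟩⟩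
    · intro k
      by_cases hk : k = (⟨0, hn⟩ : Fin n)
      · rw [hk, Function.update_self]
        exact hu _
      · rw [Function.update_of_ne hk]
        exact Nat.zero_le _
    · rw [Finset.sum_update_of_mem (mem_univ _)]
      simp
  exact_mod_cast Fintype.card_pos

theorem cnt' (t : Fin n → ℕ) (m : ℕ) (hu : ∀ k, m + 1 ≤ t k) (b c : Fin n) (hbc : b ≠ c)
    (d : ℕ) (hd : 1 ≤ d) :
    ((m : ℝ) + 1) * Vc t b c (m + 1) d - ((m : ℝ) + n) * Vc t b c m d
      = (d : ℝ) * ((d : ℝ) + 1) * (Mc t b c (m + 1) d - Mc t b c m d) :=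
  cnt t m hu b c hbc d hd

/-- The sum over the levels of `d (d + 1)` times the level counts, summed over the ordered
pairs of columns, in a class without caps. -/
theorem sum_levels (t : Fin n → ℕ) (m : ℕ) (hu : ∀ k, m ≤ t k) :
    sumNe (fun b c : Fin n =>
        ∑ d ∈ Finset.Icc 1 (min (t b) (t c)), (d : ℝ) * ((d : ℝ) + 1) * Mc t b c m d)
      = ((n : ℝ) - 1) * ∑ w : Box n t m, ∑ b : Fin n, (w.1 b : ℝ) * ((w.1 b : ℝ) + 1) := by
  have h1 : ∀ b c : Fin n, b ≠ c →
      ∑ d ∈ Finset.Icc 1 (min (t b) (t c)), (d : ℝ) * ((d : ℝ) + 1) * Mc t b c m d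
        = ∑ w : Box n t m, (w.1 b : ℝ) * ((w.1 b : ℝ) + 1) := by
    intro b c hbc
    unfold Mc
    have e1 : ∀ d ∈ Finset.Icc 1 (min (t b) (t c)),
        (d : ℝ) * ((d : ℝ) + 1)
            * ((univ.filter (fun w : Box n t m => levelB b c w = d)).card : ℝ)
          = ∑ w : Box n t m, (if levelB b c w = d then (d : ℝ) * ((d : ℝ) + 1) else 0) := by
      intro d _
      rw [Finset.card_filter]
      push_cast
      rw [Finset.mul_sum]
      refine Finset.sum_congr rfl (fun w _ => ?_)
      by_cases h : levelB b c w = d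
      · rw [if_pos h, if_pos h, mul_one]
      · rw [if_neg h, if_neg h, mul_zero]
    rw [Finset.sum_congr rfl e1, Finset.sum_comm]
    refine Finset.sum_congr rfl (fun w _ => ?_)
    rw [Finset.sum_ite_eq (Finset.Icc 1 (min (t b) (t c))) (levelB b c w)
      (fun d => (d : ℝ) * ((d : ℝ) + 1))]
    have hl := levelB_unc t m hu b c hbc w
    by_cases h0 : levelB b c w ∈ Finset.Icc 1 (min (t b) (t c))
    · rw [if_pos h0, hl]
    · rw [if_neg h0]
      have h2 : levelB b c w = 0 := by
        rw [Finset.mem_Icc] at h0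
        have h3 := two_le t m b c hbc w
        have h4 := hu b
        have h5 := hu c
        omega
      rw [← hl, h2]
      simp
  rw [sumNe_congr _ _ h1,
    sumNe_fst (fun b => ∑ w : Box n t m, (w.1 b : ℝ) * ((w.1 b : ℝ) + 1)), Finset.sum_comm]

/-- The sum of the depths of a vector over the ordered pairs of columns, in a class without
caps. -/
theorem sum_depths (t : Fin n → ℕ) (m : ℕ) (hu : ∀ k, m ≤ t k) (w : Box n t m) :
    sumNe (fun b c : Fin n => (depthB b c w : ℝ)) = 2 * ((n : ℝ) - 1) * m := by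
  have h1 : ∀ b c : Fin n, b ≠ c → (depthB b c w : ℝ) = (w.1 b : ℝ) + (w.1 c : ℝ) := by
    intro b c hbc
    rw [depthB_unc t m hu b c hbc w]
    push_cast
    rfl
  rw [sumNe_congr _ _ h1, sumNe_add, sumNe_fst (fun b => (w.1 b : ℝ)),
    sumNe_snd (fun c => (w.1 c : ℝ)), sum_coord]
  ring

end counts

section slices

variable {n : ℕ} {s : Fin (n + 1) → ℕ} {ρ : ℕ}

/-- The sum of `f` over the slice `{z a = j}`. -/
noncomputable def sigS (a : Fin (n + 1)) (f : Box (n + 1) s ρ → ℝ) (j : ℕ) : ℝ :=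
  ∑ w, sliceFun a j f w

/-- The sum of `f` over the slices `{z a = j}`, `j ≥ j0`. -/
noncomputable def TS (a : Fin (n + 1)) (f : Box (n + 1) s ρ → ℝ) (j0 : ℕ) : ℝ :=
  ∑ j ∈ Finset.range (min (s a) ρ + 1), (if j0 ≤ j then sigS a f j else 0)

/-- The potential of the shifts. -/
noncomputable def psiS (a : Fin (n + 1)) (f : Box (n + 1) s ρ → ℝ) (j : ℕ) : ℝ :=
  -TS a f j / (((ρ : ℝ) - j + 1) * Pc (fun k => s (a.succAbove k)) (ρ - (j - 1)))

theorem TS_zero (a : Fin (n + 1)) (f : Box (n + 1) s ρ → ℝ) : TS a f 0 = ∑ z, f z := by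
  unfold TS sigS
  rw [sum_slices a f]
  refine Finset.sum_congr rfl (fun j _ => ?_)
  rw [if_pos (Nat.zero_le j)]

theorem TS_large (a : Fin (n + 1)) (f : Box (n + 1) s ρ → ℝ) (j0 : ℕ)
    (h : min (s a) ρ < j0) : TS a f j0 = 0 := by
  unfold TS
  refine Finset.sum_eq_zero (fun j hj => ?_)
  rw [Finset.mem_range] at hj
  rw [if_neg (by omega)]

theorem TS_sub (a : Fin (n + 1)) (f : Box (n + 1) s ρ → ℝ) (j0 : ℕ)
    (h : j0 ≤ min (s a) ρ) : TS a f j0 - TS a f (j0 + 1) = sigS a f j0 := by
  unfold TS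
  rw [← Finset.sum_sub_distrib]
  have e : ∀ j ∈ Finset.range (min (s a) ρ + 1),
      (if j0 ≤ j then sigS a f j else 0) - (if j0 + 1 ≤ j then sigS a f j else 0)
        = (if j0 = j then sigS a f j else 0) := by
    intro j _
    by_cases h1 : j0 = j
    · rw [if_pos (by omega), if_neg (by omega), if_pos h1, sub_zero]
    · by_cases h2 : j0 ≤ j
      · rw [if_pos h2, if_pos (by omega), if_neg h1, sub_self]
      · rw [if_neg h2, if_neg (by omega), if_neg h1, sub_self]
  rw [Finset.sum_congr rfl e, Finset.sum_ite_eq (Finset.range (min (s a) ρ + 1)) j0,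
    if_pos (Finset.mem_range.2 (by omega))]

theorem psiS_zero (a : Fin (n + 1)) (f : Box (n + 1) s ρ → ℝ) (hf : ∑ z, f z = 0) :
    psiS a f 0 = 0 := by
  unfold psiS
  rw [TS_zero, hf, neg_zero, zero_div]

theorem psiS_large (a : Fin (n + 1)) (f : Box (n + 1) s ρ → ℝ) (j0 : ℕ)
    (h : min (s a) ρ < j0) : psiS a f j0 = 0 := by
  unfold psiS
  rw [TS_large a f j0 h, neg_zero, zero_div]

/-- The caps of the slices are not active. -/
theorem slice_unc (a : Fin (n + 1)) (hs : ∀ b, b ≠ a → ρ ≤ s b) (m : ℕ) (hm : m ≤ ρ)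
    (k : Fin n) : m ≤ (fun k => s (a.succAbove k)) k :=
  hm.trans (hs (a.succAbove k) (Fin.succAbove_ne a k))

/-- The slice averages in terms of the potential. -/
theorem avg_eq_psi (hn : 1 ≤ n) (a : Fin (n + 1)) (hs : ∀ b, b ≠ a → ρ ≤ s b)
    (f : Box (n + 1) s ρ → ℝ) (hf : ∑ z, f z = 0) (j : ℕ) (hj : j ≤ min (s a) ρ) :
    sigS a f j / Pc (fun k => s (a.succAbove k)) (ρ - j)
      = ((ρ : ℝ) - j) * psiS a f (j + 1) - ((ρ : ℝ) - j + n) * psiS a f j := by
  have hjρ : j ≤ ρ := hj.trans (min_le_right _ _)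
  have hπ : 0 < Pc (fun k => s (a.succAbove k)) (ρ - j) :=
    Pc_pos hn _ _ (slice_unc a hs (ρ - j) (Nat.sub_le ρ j))
  have hW : (0 : ℝ) ≤ (ρ : ℝ) - j := by
    have : (j : ℝ) ≤ (ρ : ℝ) := by exact_mod_cast hjρ
    linarith
  have hn' : (1 : ℝ) ≤ (n : ℝ) := by exact_mod_cast hn
  -- first term
  have h1 : ((ρ : ℝ) - j) * psiS a f (j + 1)
      = -TS a f (j + 1) / Pc (fun k => s (a.succAbove k)) (ρ - j) := by
    unfold psiS
    rw [Nat.add_sub_cancel]
    have e : (ρ : ℝ) - ((j + 1 : ℕ) : ℝ) + 1 = (ρ : ℝ) - j := by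
      push_cast
      ring
    rw [e]
    by_cases h0 : (ρ : ℝ) - j = 0
    · have hjeq : j = ρ := by
        have : (j : ℝ) = (ρ : ℝ) := by linarith
        exact_mod_cast this
      have hT : TS a f (j + 1) = 0 := by
        refine TS_large a f (j + 1) ?_
        have := min_le_right (s a) ρ
        omega
      rw [hT, h0]
      simp
    · rw [neg_div, mul_neg, mul_div_assoc', mul_div_mul_left _ _ h0, neg_div]
  -- second term
  have h2 : ((ρ : ℝ) - j + n) * psiS a f j
      = -TS a f j / Pc (fun k => s (a.succAbove k)) (ρ - j) := by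
    rcases Nat.eq_zero_or_pos j with hj0 | hj0
    · subst hj0
      rw [psiS_zero a f hf, TS_zero, hf]
      simp
    · unfold psiS
      have e1 : ρ - (j - 1) = (ρ - j) + 1 := by omega
      rw [e1]
      have hsucc := Pc_succ (fun k => s (a.succAbove k)) (ρ - j)
        (fun k => by
          have h := hs (a.succAbove k) (Fin.succAbove_ne a k)
          show ρ - j + 1 ≤ s (a.succAbove k)
          omega)
      have hcast : ((ρ - j : ℕ) : ℝ) = (ρ : ℝ) - j := by
        rw [Nat.cast_sub hjρ]
      rw [hcast] at hsucc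
      have hpos : 0 < ((ρ : ℝ) - j + n) := by linarith
      have hden : ((ρ : ℝ) - j + 1) * Pc (fun k => s (a.succAbove k)) (ρ - j + 1)
          = ((ρ : ℝ) - j + n) * Pc (fun k => s (a.succAbove k)) (ρ - j) := hsucc
      rw [hden]
      field_simp
  rw [h1, h2, ← TS_sub a f j hj]
  field_simp
  ring

/-- The identity that makes the shifted slice sums add up to the sum of the class. -/
theorem cd_identity (hn : 1 ≤ n) (a : Fin (n + 1)) (hs : ∀ b, b ≠ a → ρ ≤ s b)
    (f : Box (n + 1) s ρ → ℝ) (hf : ∑ z, f z = 0) (b c : Fin n) (hbc : b ≠ c) (d : ℕ)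
    (hd : 1 ≤ d) :
    ∑ j ∈ Finset.range (min (s a) ρ + 1),
        sigS a f j / Pc (fun k => s (a.succAbove k)) (ρ - j) * Vc (fun k => s (a.succAbove k)) b c (ρ - j) d
      = ∑ j ∈ Finset.range (min (s a) ρ + 1),
        (d : ℝ) * ((d : ℝ) + 1) * Mc (fun k => s (a.succAbove k)) b c (ρ - j) d * (psiS a f (j + 1) - psiS a f j) := by
  have h0 := psiS_zero a f hf
  have hJ := psiS_large a f (min (s a) ρ + 1) (Nat.lt_succ_self _)
  have hL : ∀ j ∈ Finset.range (min (s a) ρ + 1),
      sigS a f j / Pc (fun k => s (a.succAbove k)) (ρ - j) * Vc (fun k => s (a.succAbove k)) b c (ρ - j) d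
        = (fun j : ℕ => ((ρ : ℝ) - j) * Vc (fun k => s (a.succAbove k)) b c (ρ - j) d) j * psiS a f (j + 1)
          - (fun j : ℕ => ((ρ : ℝ) - j + n) * Vc (fun k => s (a.succAbove k)) b c (ρ - j) d) j * psiS a f j := by
    intro j hj
    rw [Finset.mem_range] at hj
    rw [avg_eq_psi hn a hs f hf j (by omega)]
    ring
  have hR : ∀ j ∈ Finset.range (min (s a) ρ + 1),
      (d : ℝ) * ((d : ℝ) + 1) * Mc (fun k => s (a.succAbove k)) b c (ρ - j) d * (psiS a f (j + 1) - psiS a f j)
        = (fun j : ℕ => (d : ℝ) * ((d : ℝ) + 1) * Mc (fun k => s (a.succAbove k)) b c (ρ - j) d) j * psiS a f (j + 1)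
          - (fun j : ℕ => (d : ℝ) * ((d : ℝ) + 1) * Mc (fun k => s (a.succAbove k)) b c (ρ - j) d) j * psiS a f j := by
    intro j _
    ring
  rw [Finset.sum_congr rfl hL, Finset.sum_congr rfl hR,
    sum_shift_pair (min (s a) ρ) (psiS a f) _ _ h0 hJ,
    sum_shift_pair (min (s a) ρ) (psiS a f) _ _ h0 hJ]
  refine Finset.sum_congr rfl (fun j hj => ?_)
  rw [Finset.mem_range] at hj
  have hjρ : j + 1 ≤ ρ := by
    have := min_le_right (s a) ρ
    omega
  have e1 : ρ - j = (ρ - (j + 1)) + 1 := by omega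
  have hc := cnt' (fun k => s (a.succAbove k)) (ρ - (j + 1)) (fun k => by
      have h := hs (a.succAbove k) (Fin.succAbove_ne a k)
      show ρ - (j + 1) + 1 ≤ s (a.succAbove k)
      omega) b c hbc d hd
  have hcast : ((ρ - (j + 1) : ℕ) : ℝ) = (ρ : ℝ) - j - 1 := by
    rw [Nat.cast_sub hjρ]
    push_cast
    ring
  rw [hcast] at hc
  congr 1
  show ((ρ : ℝ) - j) * Vc (fun k => s (a.succAbove k)) b c (ρ - j) d
      - ((ρ : ℝ) - ((j + 1 : ℕ) : ℝ) + n) * Vc (fun k => s (a.succAbove k)) b c (ρ - (j + 1)) d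
    = (d : ℝ) * ((d : ℝ) + 1) * Mc (fun k => s (a.succAbove k)) b c (ρ - j) d
      - (d : ℝ) * ((d : ℝ) + 1) * Mc (fun k => s (a.succAbove k)) b c (ρ - (j + 1)) d
  rw [e1]
  push_cast
  linarith [hc]

/-- The bound of the slice defect of one ordered pair of columns. -/
theorem pair_bound (hn : 1 ≤ n) (a : Fin (n + 1)) (hs : ∀ b, b ≠ a → ρ ≤ s b)
    (f : Box (n + 1) s ρ → ℝ) (hf : ∑ z, f z = 0) (b c : Fin n) (hbc : b ≠ c) :
    penB (a.succAbove b) (a.succAbove c) f
        - ∑ j ∈ Finset.range (min (s a) ρ + 1), penB b c (centreB (sliceFun a j f))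
      ≤ ∑ j ∈ Finset.range (min (s a) ρ + 1),
          (2 * (psiS a f (j + 1) - psiS a f j)
              * ∑ d ∈ Finset.Icc 1 (min (s (a.succAbove b)) (s (a.succAbove c))),
                  ∑ w ∈ univ.filter (fun w : Box n (fun k => s (a.succAbove k)) (ρ - j) => d ≤ depthB b c w),
                    centreB (sliceFun a j f) w
            + (psiS a f (j + 1) - psiS a f j) ^ 2
              * ∑ d ∈ Finset.Icc 1 (min (s (a.succAbove b)) (s (a.succAbove c))),
                  (d : ℝ) * ((d : ℝ) + 1) * Mc (fun k => s (a.succAbove k)) b c (ρ - j) d) := by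
  rw [sub_le_iff_le_add, ← Finset.sum_add_distrib]
  have hslice : ∀ j ∈ Finset.range (min (s a) ρ + 1),
      (2 * (psiS a f (j + 1) - psiS a f j)
            * ∑ d ∈ Finset.Icc 1 (min (s (a.succAbove b)) (s (a.succAbove c))),
                ∑ w ∈ univ.filter (fun w : Box n (fun k => s (a.succAbove k)) (ρ - j) => d ≤ depthB b c w),
                  centreB (sliceFun a j f) w
          + (psiS a f (j + 1) - psiS a f j) ^ 2
            * ∑ d ∈ Finset.Icc 1 (min (s (a.succAbove b)) (s (a.succAbove c))),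
                (d : ℝ) * ((d : ℝ) + 1) * Mc (fun k => s (a.succAbove k)) b c (ρ - j) d)
        + penB b c (centreB (sliceFun a j f))
      = ∑ d ∈ Finset.Icc 1 (min (s (a.succAbove b)) (s (a.succAbove c))),
          ((∑ w ∈ univ.filter (fun w : Box n (fun k => s (a.succAbove k)) (ρ - j) => d ≤ depthB b c w),
                centreB (sliceFun a j f) w) ^ 2
              / ((d : ℝ) * ((d : ℝ) + 1) * Mc (fun k => s (a.succAbove k)) b c (ρ - j) d)
            + 2 * (∑ w ∈ univ.filter (fun w : Box n (fun k => s (a.succAbove k)) (ρ - j) => d ≤ depthB b c w),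
                centreB (sliceFun a j f) w) * (psiS a f (j + 1) - psiS a f j)
            + (d : ℝ) * ((d : ℝ) + 1) * Mc (fun k => s (a.succAbove k)) b c (ρ - j) d
              * (psiS a f (j + 1) - psiS a f j) ^ 2) := by
    intro j _
    unfold penB
    rw [Finset.mul_sum, Finset.mul_sum, ← Finset.sum_add_distrib, ← Finset.sum_add_distrib]
    refine Finset.sum_congr rfl (fun d _ => ?_)
    unfold Mc
    ring
  rw [Finset.sum_congr rfl hslice, Finset.sum_comm]
  unfold penB
  refine Finset.sum_le_sum (fun d hd => ?_)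
  have hd1 : 1 ≤ d := (Finset.mem_Icc.1 hd).1
  have hT : ∑ z ∈ univ.filter
        (fun z : Box (n + 1) s ρ => d ≤ depthB (a.succAbove b) (a.succAbove c) z), f z
      = ∑ j ∈ Finset.range (min (s a) ρ + 1),
          ∑ w ∈ univ.filter (fun w : Box n (fun k => s (a.succAbove k)) (ρ - j) => d ≤ depthB b c w),
            sliceFun a j f w :=
    sum_filter_slices a f _ (fun j w => d ≤ depthB b c w)
      (fun j hj hρ w => by rw [depthB_insB])
  have hM : ((univ.filter
        (fun z : Box (n + 1) s ρ => levelB (a.succAbove b) (a.succAbove c) z = d)).card : ℝ)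
      = ∑ j ∈ Finset.range (min (s a) ρ + 1), Mc (fun k => s (a.succAbove k)) b c (ρ - j) d := by
    have h1 := sum_filter_slices a (fun _ => (1 : ℝ))
      (fun z : Box (n + 1) s ρ => levelB (a.succAbove b) (a.succAbove c) z = d)
      (fun j w => levelB b c w = d) (fun j hj hρ w => by rw [levelB_insB])
    rw [Finset.sum_const, nsmul_eq_mul, mul_one] at h1
    rw [h1]
    refine Finset.sum_congr rfl (fun j hj => ?_)
    rw [Finset.mem_range] at hj
    have hj1 : j ≤ s a := by omega
    have hj2 : j ≤ ρ := by omega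
    have h2 : ∀ w ∈ univ.filter (fun w : Box n (fun k => s (a.succAbove k)) (ρ - j) => levelB b c w = d),
        sliceFun a j (fun _ : Box (n + 1) s ρ => (1 : ℝ)) w = 1 :=
      fun w _ => sliceFun_eq a j hj1 hj2 _ w
    rw [Finset.sum_congr rfl h2, Finset.sum_const, nsmul_eq_mul, mul_one]
    rfl
  have hsplit : ∀ j ∈ Finset.range (min (s a) ρ + 1),
      ∑ w ∈ univ.filter (fun w : Box n (fun k => s (a.succAbove k)) (ρ - j) => d ≤ depthB b c w), sliceFun a j f w
        = ∑ w ∈ univ.filter (fun w : Box n (fun k => s (a.succAbove k)) (ρ - j) => d ≤ depthB b c w),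
            centreB (sliceFun a j f) w
          + sigS a f j / Pc (fun k => s (a.succAbove k)) (ρ - j) * Vc (fun k => s (a.succAbove k)) b c (ρ - j) d := by
    intro j _
    unfold centreB sigS Pc Vc
    rw [Finset.sum_sub_distrib, Finset.sum_const, nsmul_eq_mul]
    ring
  have hX : ∑ z ∈ univ.filter
        (fun z : Box (n + 1) s ρ => d ≤ depthB (a.succAbove b) (a.succAbove c) z), f z
      = ∑ j ∈ Finset.range (min (s a) ρ + 1),
          (∑ w ∈ univ.filter (fun w : Box n (fun k => s (a.succAbove k)) (ρ - j) => d ≤ depthB b c w),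
              centreB (sliceFun a j f) w
            + (d : ℝ) * ((d : ℝ) + 1) * Mc (fun k => s (a.succAbove k)) b c (ρ - j) d
              * (psiS a f (j + 1) - psiS a f j)) := by
    rw [hT, Finset.sum_congr rfl hsplit, Finset.sum_add_distrib, Finset.sum_add_distrib,
      cd_identity hn a hs f hf b c hbc d hd1]
  have hκ : (0 : ℝ) < (d : ℝ) * ((d : ℝ) + 1) := by
    have : (1 : ℝ) ≤ d := by exact_mod_cast hd1
    nlinarith
  have hmain := pen_shift (Finset.range (min (s a) ρ + 1))
    (fun j => ∑ w ∈ univ.filter (fun w : Box n (fun k => s (a.succAbove k)) (ρ - j) => d ≤ depthB b c w),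
      centreB (sliceFun a j f) w)
    (fun j => Mc (fun k => s (a.succAbove k)) b c (ρ - j) d)
    (fun j => psiS a f (j + 1) - psiS a f j)
    ((d : ℝ) * ((d : ℝ) + 1)) hκ
    (fun j _ => Nat.cast_nonneg _)
    (fun j _ h0 => by
      have h0' : (univ.filter (fun w : Box n (fun k => s (a.succAbove k)) (ρ - j) => levelB b c w = d)).card = 0 := by
        unfold Mc at h0
        exact_mod_cast h0
      have hemp : univ.filter (fun w : Box n (fun k => s (a.succAbove k)) (ρ - j) => d ≤ depthB b c w) = ∅ := by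
        refine Finset.filter_false_of_mem (fun w _ hw => ?_)
        obtain ⟨w', hw'⟩ := exists_levelB b c hbc w d hw
        have hmem : w' ∈ univ.filter (fun w : Box n (fun k => s (a.succAbove k)) (ρ - j) => levelB b c w = d) :=
          Finset.mem_filter.2 ⟨Finset.mem_univ _, hw'⟩
        rw [Finset.card_eq_zero.1 h0'] at hmem
        exact (Finset.notMem_empty _ hmem)
      show ∑ w ∈ univ.filter (fun w : Box n (fun k => s (a.succAbove k)) (ρ - j) => d ≤ depthB b c w),
        centreB (sliceFun a j f) w = 0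
      rw [hemp, Finset.sum_empty])
    (∑ z ∈ univ.filter
        (fun z : Box (n + 1) s ρ => d ≤ depthB (a.succAbove b) (a.succAbove c) z), f z)
    hX
  rw [hM]
  exact hmain

/-- The terms linear in the centred slice sums cancel after summation over the pairs. -/
theorem sum_linear (a : Fin (n + 1)) (hs : ∀ b, b ≠ a → ρ ≤ s b)
    (f : Box (n + 1) s ρ → ℝ) (j : ℕ) :
    sumNe (fun b c : Fin n =>
        ∑ d ∈ Finset.Icc 1 (min (s (a.succAbove b)) (s (a.succAbove c))),
          ∑ w ∈ univ.filter (fun w : Box n (fun k => s (a.succAbove k)) (ρ - j) => d ≤ depthB b c w),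
            centreB (sliceFun a j f) w) = 0 := by
  have hu := slice_unc a hs (ρ - j) (Nat.sub_le ρ j)
  have h1 : ∀ b c : Fin n, b ≠ c →
      ∑ d ∈ Finset.Icc 1 (min (s (a.succAbove b)) (s (a.succAbove c))),
          ∑ w ∈ univ.filter (fun w : Box n (fun k => s (a.succAbove k)) (ρ - j) => d ≤ depthB b c w),
            centreB (sliceFun a j f) w
        = ∑ w : Box n (fun k => s (a.succAbove k)) (ρ - j), (depthB b c w : ℝ) * centreB (sliceFun a j f) w := by
    intro b c _
    have e1 : ∀ d ∈ Finset.Icc 1 (min (s (a.succAbove b)) (s (a.succAbove c))),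
        ∑ w ∈ univ.filter (fun w : Box n (fun k => s (a.succAbove k)) (ρ - j) => d ≤ depthB b c w),
            centreB (sliceFun a j f) w
          = ∑ w : Box n (fun k => s (a.succAbove k)) (ρ - j),
              (if d ≤ depthB b c w then centreB (sliceFun a j f) w else 0) :=
      fun d _ => Finset.sum_filter _ _
    rw [Finset.sum_congr rfl e1, Finset.sum_comm]
    refine Finset.sum_congr rfl (fun w _ => ?_)
    have hle : depthB b c w ≤ min (s (a.succAbove b)) (s (a.succAbove c)) := by
      unfold depthB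
      exact min_le_right _ _
    rw [sum_Icc_le _ _ hle (fun _ => centreB (sliceFun a j f) w), Finset.sum_const,
      Nat.card_Icc, nsmul_eq_mul]
    simp
  rw [sumNe_congr _ _ h1, ← sumNe_sum]
  have h2 : ∀ w ∈ (univ : Finset (Box n (fun k => s (a.succAbove k)) (ρ - j))),
      sumNe (fun b c : Fin n => (depthB b c w : ℝ) * centreB (sliceFun a j f) w)
        = 2 * ((n : ℝ) - 1) * ((ρ - j : ℕ) : ℝ) * centreB (sliceFun a j f) w := by
    intro w _
    have e2 : ∀ b c : Fin n, b ≠ c →
        (depthB b c w : ℝ) * centreB (sliceFun a j f) w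
          = centreB (sliceFun a j f) w * (depthB b c w : ℝ) := fun b c _ => mul_comm _ _
    rw [sumNe_congr _ _ e2, sumNe_mul_left, sum_depths (fun k => s (a.succAbove k)) (ρ - j) hu w]
    ring
  rw [Finset.sum_congr rfl h2, ← Finset.mul_sum, sum_centreB, mul_zero]

/-- The squared deviation of the slice averages in terms of the slices. -/
theorem between_eq (a : Fin (n + 1)) (f : Box (n + 1) s ρ → ℝ) (hf : ∑ z, f z = 0) :
    betweenB a f = ∑ j ∈ Finset.range (min (s a) ρ + 1),
      Pc (fun k => s (a.succAbove k)) (ρ - j) * (sigS a f j / Pc (fun k => s (a.succAbove k)) (ρ - j)) ^ 2 := by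
  unfold betweenB
  rw [hf, zero_div]
  simp only [sub_zero]
  rw [sum_slices a (fun z => (avgRel (SliceRel a) f z) ^ 2)]
  refine Finset.sum_congr rfl (fun j hj => ?_)
  rw [Finset.mem_range] at hj
  have hj1 : j ≤ s a := by omega
  have hj2 : j ≤ ρ := by omega
  have h1 : ∀ w ∈ (univ : Finset (Box n (fun k => s (a.succAbove k)) (ρ - j))),
      sliceFun a j (fun z => (avgRel (SliceRel a) f z) ^ 2) w
        = (sigS a f j / Pc (fun k => s (a.succAbove k)) (ρ - j)) ^ 2 := by
    intro w _
    rw [sliceFun_eq a j hj1 hj2]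
    have e := congrFun (sliceFun_sub_avg a j hj1 hj2 f) w
    rw [sliceFun_eq a j hj1 hj2] at e
    unfold centreB at e
    rw [sliceFun_eq a j hj1 hj2 f w] at e
    have e' : avgRel (SliceRel a) f (insB a j hj1 hj2 w) = sigS a f j / Pc (fun k => s (a.succAbove k)) (ρ - j) := by
      unfold sigS Pc
      linarith
    rw [e']
  rw [Finset.sum_congr rfl h1, Finset.sum_const, Finset.card_univ, nsmul_eq_mul]
  rfl

/-- The telescoping identity for the quadratic remainder. -/
theorem iso_identity (hn : 1 ≤ n) (a : Fin (n + 1)) (hs : ∀ b, b ≠ a → ρ ≤ s b)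
    (f : Box (n + 1) s ρ → ℝ) (hf : ∑ z, f z = 0) :
    ∑ j ∈ Finset.range (min (s a) ρ + 1),
        Pc (fun k => s (a.succAbove k)) (ρ - j) * (sigS a f j / Pc (fun k => s (a.succAbove k)) (ρ - j)) ^ 2
      = ∑ j ∈ Finset.range (min (s a) ρ + 1),
        Pc (fun k => s (a.succAbove k)) (ρ - j) * ((ρ : ℝ) - j) * ((ρ : ℝ) - j + n)
          * (psiS a f (j + 1) - psiS a f j) ^ 2 := by
  have h0 : (fun j => psiS a f j ^ 2) 0 = 0 := by
    show psiS a f 0 ^ 2 = 0
    rw [psiS_zero a f hf]
    ring
  have hJ : (fun j => psiS a f j ^ 2) (min (s a) ρ + 1) = 0 := by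
    show psiS a f (min (s a) ρ + 1) ^ 2 = 0
    rw [psiS_large a f (min (s a) ρ + 1) (Nat.lt_succ_self _)]
    ring
  have hL : ∀ j ∈ Finset.range (min (s a) ρ + 1),
      Pc (fun k => s (a.succAbove k)) (ρ - j) * (sigS a f j / Pc (fun k => s (a.succAbove k)) (ρ - j)) ^ 2
        = Pc (fun k => s (a.succAbove k)) (ρ - j) * ((ρ : ℝ) - j) * ((ρ : ℝ) - j + n)
            * (psiS a f (j + 1) - psiS a f j) ^ 2
          - (n : ℝ) * ((fun j : ℕ => Pc (fun k => s (a.succAbove k)) (ρ - j) * ((ρ : ℝ) - j)) j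
              * (fun j => psiS a f j ^ 2) (j + 1)
            - (fun j : ℕ => Pc (fun k => s (a.succAbove k)) (ρ - j) * ((ρ : ℝ) - j + n)) j
              * (fun j => psiS a f j ^ 2) j) := by
    intro j hj
    rw [Finset.mem_range] at hj
    rw [avg_eq_psi hn a hs f hf j (by omega)]
    ring
  rw [Finset.sum_congr rfl hL, Finset.sum_sub_distrib, ← Finset.mul_sum,
    sum_shift_pair (min (s a) ρ) (fun j => psiS a f j ^ 2) _ _ h0 hJ]
  have hz : ∑ j ∈ Finset.range (min (s a) ρ),
      ((fun j : ℕ => Pc (fun k => s (a.succAbove k)) (ρ - j) * ((ρ : ℝ) - j)) j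
        - (fun j : ℕ => Pc (fun k => s (a.succAbove k)) (ρ - j) * ((ρ : ℝ) - j + n)) (j + 1))
        * (fun j => psiS a f j ^ 2) (j + 1) = 0 := by
    refine Finset.sum_eq_zero (fun j hj => ?_)
    rw [Finset.mem_range] at hj
    have hjρ : j + 1 ≤ ρ := by
      have := min_le_right (s a) ρ
      omega
    have e1 : ρ - j = (ρ - (j + 1)) + 1 := by omega
    have hsucc := Pc_succ (fun k => s (a.succAbove k)) (ρ - (j + 1)) (fun k => by
      have h := hs (a.succAbove k) (Fin.succAbove_ne a k)
      show ρ - (j + 1) + 1 ≤ s (a.succAbove k)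
      omega)
    have hcast : ((ρ - (j + 1) : ℕ) : ℝ) = (ρ : ℝ) - j - 1 := by
      rw [Nat.cast_sub hjρ]
      push_cast
      ring
    rw [hcast] at hsucc
    have hzero : Pc (fun k => s (a.succAbove k)) (ρ - j) * ((ρ : ℝ) - j)
        - Pc (fun k => s (a.succAbove k)) (ρ - (j + 1)) * ((ρ : ℝ) - ((j + 1 : ℕ) : ℝ) + n) = 0 := by
      rw [e1]
      push_cast
      linarith [hsucc]
    show (Pc (fun k => s (a.succAbove k)) (ρ - j) * ((ρ : ℝ) - j)
        - Pc (fun k => s (a.succAbove k)) (ρ - (j + 1)) * ((ρ : ℝ) - ((j + 1 : ℕ) : ℝ) + n)) * psiS a f (j + 1) ^ 2 = 0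
    rw [hzero, zero_mul]
  rw [hz, mul_zero, sub_zero]

/-- The slice defect of the penalties in a class whose arms are not capped: for `f` of zero
sum, the sum over the ordered pairs of columns different from `a` of the penalty of `f` in the
class minus the sum of the penalties of the centred restrictions of `f` to the slices
`{z a = j}` is at most `2 (n - 1) / (n + 1)` times the squared deviation of the slice
averages. -/
theorem slice_defect_uncapped (hn : 1 ≤ n) (s : Fin (n + 1) → ℕ) (ρ : ℕ) (a : Fin (n + 1))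
    (hs : ∀ b, b ≠ a → ρ ≤ s b) (f : Box (n + 1) s ρ → ℝ) (hf : ∑ z, f z = 0) :
    ∑ b : Fin n, ∑ c : Fin n, (if b ≠ c then
        penB (a.succAbove b) (a.succAbove c) f
          - ∑ j ∈ Finset.range (min (s a) ρ + 1), penB b c (centreB (sliceFun a j f))
        else 0)
      ≤ 2 * ((n : ℝ) - 1) / ((n : ℝ) + 1) * betweenB a f := by
  have hn' : (1 : ℝ) ≤ (n : ℝ) := by exact_mod_cast hn
  show sumNe (fun b c : Fin n => penB (a.succAbove b) (a.succAbove c) f
      - ∑ j ∈ Finset.range (min (s a) ρ + 1), penB b c (centreB (sliceFun a j f))) ≤ _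
  refine le_trans (sumNe_le _ _ (fun b c hbc => pair_bound hn a hs f hf b c hbc)) ?_
  rw [← sumNe_sum]
  have hterm : ∀ j ∈ Finset.range (min (s a) ρ + 1),
      sumNe (fun b c : Fin n =>
          2 * (psiS a f (j + 1) - psiS a f j)
              * ∑ d ∈ Finset.Icc 1 (min (s (a.succAbove b)) (s (a.succAbove c))),
                  ∑ w ∈ univ.filter (fun w : Box n (fun k => s (a.succAbove k)) (ρ - j) => d ≤ depthB b c w),
                    centreB (sliceFun a j f) w
            + (psiS a f (j + 1) - psiS a f j) ^ 2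
              * ∑ d ∈ Finset.Icc 1 (min (s (a.succAbove b)) (s (a.succAbove c))),
                  (d : ℝ) * ((d : ℝ) + 1) * Mc (fun k => s (a.succAbove k)) b c (ρ - j) d)
        = 2 * ((n : ℝ) - 1) / ((n : ℝ) + 1)
          * (Pc (fun k => s (a.succAbove k)) (ρ - j) * ((ρ : ℝ) - j) * ((ρ : ℝ) - j + n)
            * (psiS a f (j + 1) - psiS a f j) ^ 2) := by
    intro j hj
    rw [Finset.mem_range] at hj
    have hjρ : j ≤ ρ := by
      have := min_le_right (s a) ρ
      omega
    have hu := slice_unc a hs (ρ - j) (Nat.sub_le ρ j)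
    have hsm := second_moment (fun k => s (a.succAbove k)) (ρ - j) hu
    have hcast : ((ρ - j : ℕ) : ℝ) = (ρ : ℝ) - j := by
      rw [Nat.cast_sub hjρ]
    rw [hcast] at hsm
    rw [sumNe_add, sumNe_mul_left, sumNe_mul_left, sum_linear a hs f j,
      sum_levels (fun k => s (a.succAbove k)) (ρ - j) hu, mul_zero, zero_add]
    have hA : ∑ w : Box n (fun k => s (a.succAbove k)) (ρ - j), ∑ b : Fin n, (w.1 b : ℝ) * ((w.1 b : ℝ) + 1)
        = 2 * ((ρ : ℝ) - j) * ((ρ : ℝ) - j + n) * Pc (fun k => s (a.succAbove k)) (ρ - j) / ((n : ℝ) + 1) := by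
      have hpos : (0 : ℝ) < (n : ℝ) + 1 := by linarith
      rw [eq_div_iff hpos.ne']
      unfold Pc
      linarith [hsm]
    rw [hA]
    have hpos : (0 : ℝ) < (n : ℝ) + 1 := by linarith
    field_simp
  rw [Finset.sum_congr rfl hterm, ← Finset.mul_sum, between_eq a f hf,
    iso_identity hn a hs f hf]

end slices

end Vale.Agent.H92.CT
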